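import Vale.Agent.Results.P329.AllClassesSym
import Vale.Agent.Lib.P329.Affine5Dih

namespace Vale.Agent.Results.P329.AllClassesSymAffTwo

open Vale.Agent.Lib.P329

/-- (1)-(6): the six statements of `AllClassesSym` (subdirect products of groups that are nilpotent
of class at most three or abelian by elementary abelian; one outer letter; scattered subwords of
length at most three; the hub theorem; forward permutations; standard generators of the symmetric
groups).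
(7), (8) concern the affine group `AGL(1,5)` of the permutations `x ↦ m * x + c` (`m ≠ 0`) of
`ZMod 5`, the Frobenius group of order 20; it has no abelian normal subgroup with elementary
abelian quotient and is not nilpotent.
(7) If no letter is sent to one of the five involutions (multiplier `4 = -1`), every language
recognised by the morphism has generalized star height at most one.
(8) The same holds if the letters have at most two images different from the identity, both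
arbitrary in `AGL(1,5)`; in particular for every morphism from a two-letter alphabet. -/
theorem result :
    (∀ (α : Type) [Finite α] (G : Type) [Group G] [Finite G] (ι : Type) [Finite ι]
      (H : ι → Type) [∀ i, Group (H i)] [∀ i, Finite (H i)] (π : ∀ i, G →* H i),
      (∀ g : G, (∀ i, π i g = 1) → g = 1) →
      (∀ i, (∃ _ : Group.IsNilpotent (H i), Group.nilpotencyClass (H i) ≤ 3) ∨
        (∃ (A : Subgroup (H i)) (p : ℕ), A.Normal ∧ (∀ x ∈ A, ∀ y ∈ A, x * y = y * x) ∧ p.Prime ∧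
          (∀ g : H i, g ^ p ∈ A) ∧ (∀ g h : H i, g * h * g⁻¹ * h⁻¹ ∈ A))) →
      ∀ (φ : α → G) (S : Set G),
        ∃ P : GRE α, P.sh ≤ 1 ∧ ∀ w : List α, w ∈ P.lang ↔ (w.map φ).prod ∈ S) ∧
    (∀ (α : Type) [Finite α] (G : Type) [Group G] [Finite G] (A : Subgroup G), A.Normal →
      (∀ x ∈ A, ∀ y ∈ A, x * y = y * x) → ∀ (g : G) (φ : α → G), (∀ a, φ a ∈ A ∨ φ a = g) →
      ∀ S : Set G, ∃ P : GRE α, P.sh ≤ 1 ∧ ∀ w : List α, w ∈ P.lang ↔ (w.map φ).prod ∈ S) ∧
    (∀ (α : Type) [Finite α] [DecidableEq α] (u : List α), u.length ≤ 3 → ∀ n r : ℕ, 0 < n →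
        ∃ P : GRE α, P.sh ≤ 1 ∧ ∀ w : List α, w ∈ P.lang ↔ w.sublists.count u % n = r) ∧
    (∀ (α : Type) [Finite α] (Q : Type) [Finite Q] [DecidableEq Q] (δ : Q → α → Q) (h : Q),
      (∀ (u : List α) (q : Q) (k : ℕ), 0 < k →
        (List.replicate k u).flatten.foldl δ q = q →
        (∀ v, v <+: (List.replicate k u).flatten → v.foldl δ q ≠ h) → u.foldl δ q = q) →
      (∀ (q : Q) (F : Set Q),
        ∃ P : GRE α, P.sh ≤ 1 ∧ ∀ w : List α, w ∈ P.lang ↔ w.foldl δ q ∈ F) ∧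
      (∀ (q : Q) (n r : ℕ), 0 < n →
        ∃ P : GRE α, P.sh ≤ 1 ∧ ∀ w : List α, w ∈ P.lang ↔
          w.inits.tail.countP (fun v => decide (v.foldl δ q = h)) % n = r)) ∧
    (∀ (α : Type) [Finite α] (n : ℕ) (φ : α → Equiv.Perm (Fin (n + 1))),
      (∀ (a : α) (i : Fin (n + 1)), i ≠ 0 → φ a i = 0 ∨ i ≤ φ a i) →
      ∀ S : Set (Equiv.Perm (Fin (n + 1))),
        ∃ P : GRE α, P.sh ≤ 1 ∧ ∀ w : List α, w ∈ P.lang ↔ (w.map φ).prod ∈ S) ∧
    (∀ (α : Type) [Finite α] (m : ℕ) (φ : α → Equiv.Perm (Fin (m + 2))),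
      (∀ a : α, φ a = finRotate (m + 2) ∨ φ a = Equiv.swap 0 1 ∨ φ a = 1) →
      ∀ S : Set (Equiv.Perm (Fin (m + 2))),
        ∃ P : GRE α, P.sh ≤ 1 ∧ ∀ w : List α, w ∈ P.lang ↔ (w.map φ).prod ∈ S) ∧
    (∀ (α : Type) [Finite α] (φ : α → Equiv.Perm (ZMod 5)),
      (∀ a, ∃ m c : ZMod 5, (m = 1 ∨ m = 2 ∨ m = 3) ∧ ∀ x, φ a x = m * x + c) →
      ∀ S : Set (Equiv.Perm (ZMod 5)),
        ∃ P : GRE α, P.sh ≤ 1 ∧ ∀ w : List α, w ∈ P.lang ↔ (w.map φ).prod ∈ S) ∧
    (∀ (α : Type) [Finite α] (φ : α → Equiv.Perm (ZMod 5)) (g r : Equiv.Perm (ZMod 5)),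
      (∃ μ γ : ZMod 5, μ ≠ 0 ∧ ∀ x, g x = μ * x + γ) →
      (∃ ρ β : ZMod 5, ρ ≠ 0 ∧ ∀ x, r x = ρ * x + β) →
      (∀ a, φ a = 1 ∨ φ a = g ∨ φ a = r) →
      ∀ S : Set (Equiv.Perm (ZMod 5)),
        ∃ P : GRE α, P.sh ≤ 1 ∧ ∀ w : List α, w ∈ P.lang ↔ (w.map φ).prod ∈ S) := by
  have h := Vale.Agent.Results.P329.AllClassesSym.result
  refine ⟨h.1, h.2.1, h.2.2.1, h.2.2.2.1, h.2.2.2.2.1, h.2.2.2.2.2, ?_, ?_⟩
  · intro α _ φ hφ S
    exact Aff5.perm_noinv φ hφ S
  · intro α _ φ g r hg hr hφ S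
    exact Aff5.perm_two_all φ g r hg hr hφ S

end Vale.Agent.Results.P329.AllClassesSymAffTwo
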